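import Vale.Agent.P300.Defs

open scoped Manifold ContDiff

namespace Vale.Agent.P300

/-- A holomorphic section of the `m`-th power of the canonical bundle of the complex manifold `X`:
for each chart `c` of the atlas a holomorphic coefficient function `coeff c` on the target of `c`,
such that `coeff c (du_1 ∧ ... ∧ du_n)^m` does not depend on the chart. -/
structure PluricanonicalForm (E : Type*) [NormedAddCommGroup E] [NormedSpace ℂ E]
    (X : Type*) [TopologicalSpace X] [ChartedSpace E X] (m : ℕ) where
  coeff : OpenPartialHomeomorph X E → E → ℂ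
  holomorphic : ∀ c ∈ atlas E X, ContDiffOn ℂ ω (coeff c) c.target
  transform : ∀ c ∈ atlas E X, ∀ c' ∈ atlas E X, ∀ x ∈ c.source ∩ c'.source,
    coeff c (c x) = coeff c' (c' x) * (fderiv ℂ (c' ∘ c.symm) (c x)).det ^ m

/-- The coefficient of a pluricanonical form at a point, in the preferred chart at that point. -/
def PluricanonicalForm.value {E : Type*} [NormedAddCommGroup E] [NormedSpace ℂ E]
    {X : Type*} [TopologicalSpace X] [ChartedSpace E X] {m : ℕ}
    (σ : PluricanonicalForm E X m) (x : X) : ℂ :=
  σ.coeff (chartAt E x) (chartAt E x x)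

/-- The canonical bundle of the compact complex manifold `X` is ample: some positive power has
finitely many sections `σ 1, ..., σ N` without common zeros such that the map
`x ↦ [σ 1 (x) : ... : σ N (x)]` to projective space has finite fibres. -/
def CanonicalBundleAmple (E : Type*) [NormedAddCommGroup E] [NormedSpace ℂ E]
    (X : Type*) [TopologicalSpace X] [ChartedSpace E X] : Prop :=
  ∃ m : ℕ, 0 < m ∧ ∃ N : ℕ, ∃ σ : Fin N → PluricanonicalForm E X m,
    (∀ x, ∃ a, (σ a).value x ≠ 0) ∧
    ∀ x, {y | ∀ a b, (σ a).value x * (σ b).value y = (σ b).value x * (σ a).value y}.Finite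

/-- A dominating local spray on the complex manifold `W`: a holomorphic map `s (w, t)` to `W`,
defined for `(w, t)` in a neighbourhood `O` of `W × {0}` in `W × T`, `T` a complex vector space,
such that `s (w, 0) = w` and such that the derivative of `s (w, ·)` at `0` maps `T` onto the
tangent space of `W` at `w`, for every `w`. -/
structure IsDominatingLocalSpray (E : Type*) [NormedAddCommGroup E] [NormedSpace ℂ E]
    {W : Type*} [TopologicalSpace W] [ChartedSpace E W]
    {T : Type*} [NormedAddCommGroup T] [NormedSpace ℂ T]
    (O : Set (W × T)) (s : W × T → W) : Prop where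
  isOpen : IsOpen O
  zero_mem : ∀ w, (w, 0) ∈ O
  holomorphic : ContMDiffOn (𝓘(ℂ, E).prod 𝓘(ℂ, T)) 𝓘(ℂ, E) ω s O
  map_zero : ∀ w, s (w, 0) = w
  dominating : ∀ w, Function.Surjective (mfderiv 𝓘(ℂ, T) 𝓘(ℂ, E) (fun t => s (w, t)) 0)

end Vale.Agent.P300
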