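import Mathlib.Geometry.Manifold.LocalDiffeomorph
import Mathlib.Topology.Covering.Basic
import Mathlib.Analysis.Complex.Basic

open scoped Manifold ContDiff

namespace Vale.Agent.P300

/-- `p : V → X` is a surjective holomorphic covering map of complex manifolds modelled on `E`. -/
def IsHolomorphicCovering (E : Type*) [NormedAddCommGroup E] [NormedSpace ℂ E]
    {V X : Type*} [TopologicalSpace V] [ChartedSpace E V] [TopologicalSpace X] [ChartedSpace E X]
    (p : V → X) : Prop :=
  IsCoveringMap p ∧ Function.Surjective p ∧ IsLocalDiffeomorph 𝓘(ℂ, E) 𝓘(ℂ, E) ω p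

/-- A covering is Galois if deck transformations act transitively on its fibres. -/
def IsGaloisCovering {V X : Type*} [TopologicalSpace V] (p : V → X) : Prop :=
  ∀ a b : V, p a = p b → ∃ γ : V ≃ₜ V, (∀ v, p (γ v) = p v) ∧ γ a = b

end Vale.Agent.P300
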