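import Mathlib.Geometry.Manifold.LocalDiffeomorph
import Mathlib.Geometry.Manifold.ContMDiffMFDeriv
import Mathlib.Topology.Homotopy.Lifting
import Mathlib.Analysis.Complex.Basic

open scoped Manifold ContDiff

namespace Vale.Agent.P300

/-- The holomorphic hull of `K` in the complex manifold `V` (modelled on `E`):
all points `v` with `|g v| ≤ sup_K |g|` for every holomorphic function `g` on `V`. -/
def holomorphicHull (E : Type*) [NormedAddCommGroup E] [NormedSpace ℂ E]
    {V : Type*} [TopologicalSpace V] [ChartedSpace E V] (K : Set V) : Set V :=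
  {v | ∀ g : V → ℂ, ContMDiff 𝓘(ℂ, E) 𝓘(ℂ) ω g →
    ∀ C : ℝ, (∀ x ∈ K, ‖g x‖ ≤ C) → ‖g v‖ ≤ C}

/-- A complex manifold is holomorphically convex if the hull of every nonempty compact set
is compact. -/
def HolomorphicallyConvex (E : Type*) [NormedAddCommGroup E] [NormedSpace ℂ E]
    (V : Type*) [TopologicalSpace V] [ChartedSpace E V] : Prop :=
  ∀ K : Set V, IsCompact K → K.Nonempty → IsCompact (holomorphicHull E K)

end Vale.Agent.P300
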